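import Vale.Agent.P352Z.FX.E
import Vale.Agent.P352AA.St

/-!
# P352E: the closure of a graded theory under linear combinations
-/

set_option linter.all false

open Filter Topology
open scoped ComplexConjugate

namespace Vale.Agent.P352E

open Vale.Agent.P352 Vale.Agent.P352.GF Vale.Agent.P352.BW Vale.Agent.P352.H246
open Vale.Agent.P352.H496 Vale.Agent.P352.H755 Vale.Agent.P352.H15
open Vale.Agent.P352.SubConf (IsAdj)
open Vale.Agent.P352X Vale.Agent.P352X.EG Vale.Agent.P352X.EG.Fx Vale.Agent.P352Z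
open Vale.Agent.P352X.ZZ.S0 (Cl clo Lo clo_enl)
open Vale.Agent.P352X.Fss (fl_apply)
open UniformSpace (Completion)

noncomputable section

variable {D : Type*} [NormedAddCommGroup D] [InnerProductSpace ℂ D] {Q : Theory D} {B C : Fld D}

theorem ls_cl {P : Fld D → Prop} (h : Ls P B) : Cl P B := by
  induction h with
  | base k => exact .base k
  | zero => exact .zero
  | lin z _ _ h1 h2 => exact .lin z h1 h2
  | cg _ e h1 => exact .cg h1 e

theorem ls_bf (h : Ls Q.bose B) : Ls Q.fld B := h.mono fun B k => .base (Q.bose_fld B k)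

theorem ls_lo (h : Ls Q.bose B) : (clo Q).bose B := by
  refine ⟨ls_cl (ls_bf h), fun E f g v hE hf hg k => ?_⟩
  induction h with
  | base b => exact Q.loc _ E f g v b hE hf hg k
  | zero => exact (map_zero (Fss.fl hE hg)).symm
  | lin z _ _ h1 h2 =>
    beta_reduce
    rw [h1, h2, ← fl_apply hE hg (_ + _), map_add, map_smul]
    rfl
  | cg _ e h1 => rw [e f _ hf, e f _ hf, h1]

/-- the closure under linear combinations -/
def lc (Q : Theory D) : Theory D :=
  { Q with
    fld := Ls Q.fld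
    bose := Ls Q.bose
    cyclic := fun S h0 h => Q.cyclic S h0 fun B f v hB => h B f v (.base hB)
    lin := fun B f g z v hB => (clo Q).lin B f g z v (ls_cl hB)
    cont := fun B v hB => (clo Q).cont B v (ls_cl hB)
    adj := fun B hB => hB.adj fun B k => let ⟨B', a, b⟩ := Q.adj B k; ⟨B', .base a, b⟩
    bose_fld := fun B => ls_bf
    loc := fun B C f g v hB hC => (clo Q).loc B C f g v (ls_lo hB) (ls_cl hC)
    transl := fun B a f v hB => (clo Q).transl B a f v (ls_cl hB) }

theorem lc_enl (Q : Theory D) : IsEnl Q (lc Q) := ⟨rfl, rfl, fun _ h => .base h, fun _ h => .base h⟩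

section

variable {c : Cg D}

/-- the grading as a linear map -/
def gl (c : Cg D) : D →ₗ[ℂ] D := ⟨⟨c.G, Bas.gadd⟩, Bas.gsmul⟩

theorem ls_par {P : Fld D → Prop} {e : Bool} (hP : ∀ B, P B → Pa c e B) (h : Ls P B) :
    Pa c e B := fun f v hf => by
  induction h with
  | base k => exact hP _ k f v hf
  | zero => exact ((congrArg _ (map_zero (gl c))).trans (smul_zero _)).symm
  | lin z _ _ h1 h2 =>
    beta_reduce
    rw [h1, h2, Bas.gadd, Bas.gsmul, smul_add, smul_comm z]
  | cg _ e h1 => rw [e f _ hf, e f _ hf, h1]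

theorem pa_bose (h : c.Q.bose B) : Pa c false B := fun f v hf => by
  rw [c.hN.bose B f v h hf]
  exact (one_smul _ _).symm

theorem pa_fer (h : Fer c.Q c.G B) : Pa c true B := fun f v hf =>
  (h.2 f v hf).trans (neg_one_smul ℂ _).symm

theorem ls_split (h : Ls c.Q.fld B) : ∃ C C', Ls c.Q.bose C ∧ Ls (Fer c.Q c.G) C' ∧
    ∀ f v, IsTest f → B f v = C f v + C' f v := by
  induction h with
  | base k =>
    obtain ⟨C, C', a, b, e⟩ := c.hN.split _ k
    exact ⟨C, C', .base a, .base b, e⟩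
  | zero => exact ⟨_, _, .zero, .zero, fun _ _ _ => (add_zero _).symm⟩
  | lin z _ _ h1 h2 =>
    obtain ⟨C, C', a, b, e⟩ := h1
    obtain ⟨E, E', a', b', e'⟩ := h2
    refine ⟨_, _, .lin z a a', .lin z b b', fun f v hf => ?_⟩
    beta_reduce
    rw [e f v hf, e' f v hf, smul_add]
    abel
  | cg _ e h1 =>
    obtain ⟨C, C', a, b, e'⟩ := h1
    exact ⟨C, C', a, b, fun f v hf => (e f v hf).trans (e' f v hf)⟩

theorem ls_ff (h : Ls (Fer c.Q c.G) B) : Ls c.Q.fld B := h.mono fun _ k => .base k.1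

theorem ls_odd (h : Ls c.Q.fld B) (k : Pa c true B) : Ls (Fer c.Q c.G) B := by
  obtain ⟨C, C', a, b, e⟩ := ls_split h
  refine .cg b fun f v hf => ?_
  have a1 := k f (c.G v) hf
  rw [e f _ hf, e f _ hf, ls_par (fun _ => pa_bose) a f _ hf, ls_par (fun _ => pa_fer) b f _ hf,
    Bas.gadd, smul_add, add_left_inj, ls_par (fun _ => pa_bose) a f v hf] at a1
  simp only [sg, cond_false, cond_true, one_smul, neg_one_smul, c.hN.inv] at a1
  have a2 : (2 : ℂ) • C f v = 0 := by
    rw [two_smul]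
    nth_rewrite 1 [a1]
    exact neg_add_cancel _
  rw [e f v hf, (smul_eq_zero.1 a2).resolve_left two_ne_zero, zero_add]

theorem ls_anti (hB : Ls (Fer c.Q c.G) B) (hC : Ls (Fer c.Q c.G) C) {f g : Fn} (hf : IsTest f)
    (hg : IsTest g) (k : Sep f g) (v : D) : B f (C g v) = -C g (B f v) := by
  have hC' : (lc c.Q).fld C := ls_ff hC
  induction hB with
  | @base B b =>
    induction hC with
    | base b' => exact c.hN.anti _ _ f g v b b' hf hg k
    | zero => exact (map_zero (Fss.fl b.1 hf)).trans neg_zero.symm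
    | lin z k1 k2 h1 h2 =>
      beta_reduce
      rw [← Fss.fl_apply b.1 hf, map_add, map_smul, Fss.fl_apply, Fss.fl_apply, h1 (ls_ff k1),
        h2 (ls_ff k2), smul_neg, neg_add]
    | cg k1 e h1 => rw [e g _ hg, e g _ hg, h1 (ls_ff k1)]
  | zero => exact ((congrArg Neg.neg (map_zero (Fss.fl hC' hg))).trans neg_zero).symm
  | lin z _ _ h1 h2 =>
    beta_reduce
    rw [h1, h2, ← fl_apply hC' hg (_ + _), map_add, map_smul, smul_neg, neg_add]
    rfl
  | cg _ e h1 => rw [e f _ hf, e f _ hf, h1]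

theorem lc_lng (c : Cg D) : LNg (lc c.Q) c.G c.A c.Γ c.N := by
  have h := c.hN
  refine ⟨⟨h.inv, h.herm, fun B f v hB hf => ?_, fun B hB => ?_, fun B C f g v hB hC hf hg k => ?_,
    h.GU, h.mul⟩, h.vac, h.add, h.der, h.ext, fun O B f hB => ?_, h.mono, h.cov, h.gam, h.loc⟩
  · exact (ls_par (fun _ => pa_bose) hB f v hf).trans (one_smul _ _)
  · obtain ⟨C, C', a, b, e⟩ := ls_split hB
    exact ⟨C, C', a, ⟨ls_ff b, fun f v hf =>
      (ls_par (fun _ => pa_fer) b f v hf).trans (neg_one_smul ℂ _)⟩, e⟩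
  · exact ls_anti (ls_odd hB.1 fun f v hf => (hB.2 f v hf).trans (neg_one_smul ℂ _).symm)
      (ls_odd hC.1 fun f v hf => (hC.2 f v hf).trans (neg_one_smul ℂ _).symm) hf hg k v
  · induction hB with
    | base k => exact h.fld O _ f k
    | zero => exact fun _ => ⟨_, Grp.afs_zero⟩
    | lin c _ _ h1 h2 =>
      intro hf
      obtain ⟨_, a⟩ := h1 hf
      obtain ⟨_, b⟩ := h2 hf
      exact ⟨_, Grp.afs_add a (Grp.afs_smul c b)⟩
    | cg _ e h1 =>
      intro hf
      rw [show _ = _ from funext fun v => e f v hf.1]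
      exact h1 hf

/-- the closed context -/
def cl (c : Cg D) : Cg D := ⟨lc c.Q, c.G, c.A, c.Γ, c.N, lc_lng c⟩

theorem en_lc (k : ℕ) : ∀ v, en (lc Q) k v = en Q k v := by
  induction k with
  | zero => exact fun _ => rfl
  | succ k h => exact fun v => by simp only [en, h]; rfl

theorem lc_ebd (hE : EBd c.Q) : EBd (lc c.Q) := fun B hB => by
  have w := wb_row c
  simp only [en_lc]
  have p : ∀ k v, 0 ≤ en c.Q k v := fun k v => (norm_nonneg v).trans (w.le k v)
  induction hB with
  | base k => exact hE _ k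
  | zero => exact ⟨0, fun f _ => ⟨0, fun v => by simp⟩⟩
  | lin z _ _ h1 h2 =>
    obtain ⟨k, h1⟩ := h1
    obtain ⟨k', h2⟩ := h2
    refine ⟨max k k', fun f hf => ?_⟩
    obtain ⟨a, h1⟩ := h1 f hf
    obtain ⟨b, h2⟩ := h2 f hf
    refine ⟨|a| + ‖z‖ * |b|, fun v => (norm_add_le _ _).trans ?_⟩
    rw [norm_smul, add_mul, mul_assoc]
    exact add_le_add ((h1 v).trans (mul_le_mul (le_abs_self a) (w.mono _ _ v (le_max_left _ _))
      (p _ _) (abs_nonneg _))) (mul_le_mul_of_nonneg_left ((h2 v).trans (mul_le_mul (le_abs_self b)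
        (w.mono _ _ v (le_max_right _ _)) (p _ _) (abs_nonneg _))) (norm_nonneg _))
  | cg _ e h1 =>
    obtain ⟨k, h1⟩ := h1
    exact ⟨k, fun f hf => (h1 f hf).imp fun a h v => by rw [e f v hf.1]; exact h v⟩

end

/-! ### charges -/

/-- functionals that are linear in the field -/
structure Ln (Λ : Fld D → ℂ) : Prop where
  zero : Λ (fun _ _ => 0) = 0
  lin : ∀ B C (z : ℂ), Λ (fun f v => B f v + z • C f v) = Λ B + z * Λ C
  cg : ∀ B C, (∀ f v, IsTest f → C f v = B f v) → Λ C = Λ B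

theorem ln_cm (X : D →ₗ[ℂ] D) {f : Fn} (hf : IsTest f) (v w : D) :
    Ln fun B => inner ℂ w (X (B f v) - B f (X v)) :=
  ⟨by simp, fun B C z => by
    simp only [map_add, map_smul, inner_sub_right, inner_add_right, inner_smul_right]
    ring, fun B C e => by simp only [e f _ hf]⟩

theorem ls_lim {P : Fld D → Prop} {Λ : ℝ → Fld D → ℂ} {Y : Fld D → ℂ} (h1 : ∀ᶠ r in atTop, Ln (Λ r))
    (h2 : Ln Y) (h : ∀ B, P B → Tendsto (Λ · B) atTop (𝓝 (Y B))) (hB : Ls P B) :
    Tendsto (Λ · B) atTop (𝓝 (Y B)) := by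
  induction hB with
  | base k => exact h _ k
  | zero =>
    rw [h2.zero]
    exact tendsto_const_nhds.congr' (h1.mono fun r a => a.zero.symm)
  | lin z _ _ a b =>
    rw [h2.lin]
    exact (a.add (b.const_mul z)).congr' (h1.mono fun r a => (a.lin _ _ z).symm)
  | cg _ e a =>
    rw [h2.cg _ _ e]
    exact a.congr' (h1.mono fun r a => (a.cg _ _ e).symm)

variable {T : Ix → Ix → Fld D} {J : Ix → Fld D} {A : (V → V) → D → D}

theorem lc_st (h : Stress0 Q T) : Stress0 (lc Q) T :=
  ⟨fun m n => .base (h.bose m n), h.symm, h.herm, h.cov, h.conserved,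
    fun F n B f v w hF hB hf hc => ls_lim (Λ := fun r B => inner ℂ w (T o n (F r) (B f v) -
      B f (T o n (F r) v))) (Y := fun B => inner ℂ w ((Complex.I * eta n) • B (pd n f) v))
      ((isTest_cutoff hF).mono fun r hr => ln_cm (Fss.fl (Q.bose_fld _ (h.bose o n)) hr) hf v w)
      ⟨by simp, fun B C z => by
        simp only [smul_add, inner_add_right, inner_smul_right]
        ring, fun B C e => by simp only [e _ _ (Ap.test_pd n hf)]⟩
      (fun B k => h.charge F n B f v w hF k hf hc) hB⟩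

theorem lc_pch (hA : P352AA.Der Q A) (hT : ∀ m n, Q.fld (T m n)) (h : ND.PCh Q T A) :
    ND.PCh (lc Q) T A := fun F X B f v w hF hX hB hf hc =>
  ls_lim (Λ := fun r B => inner ℂ w (ND.cur T X (F r) (B f v) - B f (ND.cur T X (F r) v)))
    (Y := fun B => inner ℂ w (A X (B f v) - B f (A X v)))
    ((isTest_cutoff hF).mono fun r hr => by
      simpa only [Fss.curL_apply] using ln_cm (Fss.curL hT hX hr) hf v w)
    (ln_cm (P352AA.gen hA hX) hf v w) (fun B k => h F X B f v w hF hX k hf hc) hB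

theorem lc_vir (hA : P352AA.Der Q A) (hT : ∀ m n, Q.fld (T m n)) (h : Virial0 Q T J A) :
    Virial0 (lc Q) T J A :=
  ⟨fun m => .base (h.bose m), h.cov, h.div, fun F B f v w hF hB hf hc =>
    ls_lim (Λ := fun r B => inner ℂ w (dcur T J (F r) (B f v) - B f (dcur T J (F r) v)))
      (Y := fun B => inner ℂ w (A id (B f v) - B f (A id v)))
      ((isTest_cutoff hF).mono fun r hr => by
        simpa only [ZZ.S0.cVL_apply, ZZ.S0.curV, Complex.ofReal_one, one_smul, dcur] using
          ln_cm (ZZ.S0.cVL hT (fun m => Q.bose_fld _ (h.bose m)) ZZ.S0.isSim_id hr) hf v w)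
      (ln_cm (P352AA.gen hA ZZ.S0.isSim_id) hf v w) (fun B k => h.dil F B f v w hF k hf hc) hB⟩

end

end Vale.Agent.P352E
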