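import Vale.Agent.P352E.A

/-!
# P352E: the stress tensor of dimension four in graded theories
-/

set_option linter.all false

open Filter Topology
open scoped ComplexConjugate

namespace Vale.Agent.P352E

open Vale.Agent.P352 Vale.Agent.P352.GF Vale.Agent.P352.BW Vale.Agent.P352.H246
open Vale.Agent.P352.H496 Vale.Agent.P352.H755 Vale.Agent.P352.H15
open Vale.Agent.P352.SubConf (IsAdj)
open Vale.Agent.P352X Vale.Agent.P352X.EG Vale.Agent.P352X.EG.Fx Vale.Agent.P352Z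
open Vale.Agent.P352X.ZZ.S0 (Cl clo Lo clo_enl dw de ue de_test dw_dl SV clo_rep clo_tf clo_lnm
  sch_of)
open Vale.Agent.P352AA
open Vale.Agent.P352X.Fss (ds u ds_test ds_apply ds_inv)
open Vale.Agent.P352X.Fss.G Vale.Agent.P352X.EG.Fsg
open UniformSpace (Completion)

noncomputable section

section bose

variable {D : Type*} [NormedAddCommGroup D] [InnerProductSpace ℂ D] {Q : Theory D}
  {A : (V → V) → D → D} {T Y : Ix → Ix → Fld D} {J K : Ix → Fld D}

/-- the marginal part of the stress tensor has no logarithms -/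
theorem core0 {N : Set V → VonNeumannAlgebra (Completion D)} (hT : Stress0 Q T)
    (hA : ND.PCh Q T A) (hV : Virial0 Q T J A) (hC : Cv Q) (hG : TfGen Q) (hN : LNm Q A N)
    (hU : UVac Q) {F : Ix → Ix → Finset (ℂ × ℕ)} {Z : Ix → Ix → ℂ × ℕ → Fld D}
    (hY : ∀ m n, Mg Q 0 (T m n) (Y m n) (F m n) (Z m n)) {F' : Ix → Finset (ℂ × ℕ)}
    {Z' : Ix → ℂ × ℕ → Fld D} (hK : ∀ m, Mg Q 1 (J m) (K m) (F' m) (Z' m)) :
    (∀ m n l f v, IsTest f → dw Q 0 l (Y m n) f v = Y m n f v) ∧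
      ∀ m n, (∀ g v, IsTest g → Y m n g v = 0) → ∀ g v, IsTest g → T o 1 g v = 0 := by
  have R := hN.toRep
  have M := m1_rep R
  have hb := fun m n => Q.bose_fld _ (hT.bose m n)
  have E := clo_enl Q
  have hC' := clo_clo M hC
  have h1 : SV 1 (clo Q) T J A := ⟨fun m n => E.bose _ (hT.bose m n), hT.herm, hT.cov,
    fun m => E.bose _ (hV.bose m), hV.cov, hT.symm, hT.conserved, hV.div,
    (sch_of R hb hA hV).clo R hb fun m => Q.bose_fld _ (hV.bose m)⟩
  have h2 := sv_marg hC' (clo_rep R) h1 (fun m n => (hY m n).bY hC') (fun m => (hK m).bY hC')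
    (fun m n => (hY m n).mf) fun m => (hK m).mf
  obtain ⟨k, Sj, Vj, h, hS⟩ := s0a hC' (clo_rep R) h2 (fun m n => (hY m n).scl M)
    fun m => ⟨_, _, (hK m).scl M⟩
  have h0 := ZZ.open_thm.sj h (clo_tf hG) (clo_lnm hN) hU
  refine ⟨fun m n l f v hf => ?_, fun m n z g v hg => deg R hU hT h2 z hg v⟩
  rw [← dw_zero M 0 (Y m n) f v, (hY m n).law _ _ _ hf, (hY m n).law _ _ _ hf]
  refine Finset.sum_congr rfl fun ⟨d, j⟩ hp => ?_
  obtain rfl : d = 4 := by simpa using (hY m n).dim _ hp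
  rcases Nat.eq_zero_or_pos j with rfl | hj
  · simp
  have := hS m n j f v hf hp
  rw [h0 j m n f v hj hf] at this
  simp [(smul_eq_zero.1 this.symm).resolve_left (Nat.cast_ne_zero.2 j.factorial_ne_zero)]

theorem tc_T (hT : Stress0 Q T) : Tc Q fun μ : Fin 2 → Ix => T (μ 0) (μ 1) :=
  fun μ L a f v hL hf => by
    beta_reduce
    rw [hT.cov _ _ L a f v hL hf, ← Fintype.sum_prod_type']
    refine (Fintype.sum_equiv (finTwoArrowEquiv Ix) _ _ fun ν => ?_).symm
    simp [Fin.prod_univ_two]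

theorem tc_J (hV : Virial0 Q T J A) : Tc Q fun μ : Fin 1 → Ix => J (μ 0) :=
  fun μ L a f v hL hf => by
    beta_reduce
    rw [hV.cov _ L a f v hL hf]
    refine (Fintype.sum_equiv (Equiv.funUnique (Fin 1) Ix) _ _ fun ν => ?_).symm
    simp

end bose

variable {D : Type*} [NormedAddCommGroup D] [InnerProductSpace ℂ D] {c : Cg D} {B : Fld D}

theorem tc_mf {k : ℕ} {Φ Ψ : (Fin k → Ix) → Fld D} {κ : ℝ} (h : Tc c.Q Φ)
    (hM : ∀ ν, Mf (fun t => dw c.Q κ t (Φ ν)) (Ψ ν)) : Tc c.Q Ψ := fun μ L a f v hL hf =>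
  (hM μ).cov (fun v w => c.Q.U_inner _ _ _ v w one_pos hL)
    (Function.Surjective.denseRange (Bas.surj (sg_row c) a one_pos hL)) hM hf
    (Ap.test_sim one_pos hL a hf) fun t => by
      simp only [dw_dl, tc_dl h (Real.exp_pos (-t)) μ L a f v hL hf, Finset.smul_sum,
        U_smul one_pos hL]
      exact Finset.sum_congr rfl fun _ _ => smul_comm _ _ _

section
variable (hC : Cv c.Q)
include hC

theorem ls_dil (h : Ls c.Q.fld B) {s : ℝ} (hs : 0 < s) : Ls c.Q.fld (Fss.dl c.Q s hs B) := by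
  induction h with
  | base h =>
    obtain ⟨n, z, C, h1, h2⟩ := ky (m1 c) hC (inv_pos.2 hs) h
    refine .cg (Ls.sum Finset.univ z fun p _ => .base (h1 p)) fun f v hf => ?_
    refine (congrArg (u c.Q s hs) (h2 _ v (ds_test hs hf))).trans ?_
    rw [u_inv (m1 c) hs, ds_inv hs]
  | zero => exact .cg .zero fun _ _ _ => map_zero (u c.Q s hs)
  | lin z _ _ h1 h2 => exact .cg (.lin z h1 h2) fun _ _ _ => by simp only [Fss.dl, map_add, map_smul]
  | cg _ e h1 => exact .cg h1 fun f v hf => by simp only [Fss.dl, e _ _ (ds_test hs hf)]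

theorem lb_dil (h : Ls c.Q.bose B) {s : ℝ} (hs : 0 < s) : Ls c.Q.bose (Fss.dl c.Q s hs B) := by
  have e : ∀ s (hs : 0 < s) v, u c.Q s hs (c.G v) = c.G (u c.Q s hs v) := fun s hs v =>
    c.hN.GU s _ 0 v hs H496.isLor_one
  obtain ⟨C, a, b⟩ := Bas.even (c := cl c) (ls_dil hC (ls_bf h) hs) fun f v hf => by
    show Fss.dl c.Q s hs B f (c.G v) = sg false • c.G (Fss.dl c.Q s hs B f v)
    rw [Fss.dl, e, ls_par (fun _ => pa_bose) h _ _ (ds_test hs hf), map_smul, e, Fss.dl]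
  exact .cg a b

theorem pf_ls (h : Ls (Dl (cl c)) B) : Pf (cl c) B :=
  ⟨h.mono fun _ ⟨s, hs, _, _, μ, h1, _, e⟩ => e ▸ lb_dil hC (h1 μ) hs, h⟩

theorem fm_cl : Fm (cl c) (Pf (cl c)) where
  bose _ h := h.1
  adj B h := by
    obtain ⟨B2, h3, h4⟩ := h.2.adj fun B => dl_adj (e0_thm (cl c))
    exact ⟨B2, pf_ls hC h3, h4⟩
  cov B s L a h hs hL := by
    obtain ⟨C, h1, h2⟩ := ls_cov h.2 hL a
    refine ⟨_, .base (pf_ls hC (ls_dl h1 (inv_pos.2 hs))), fun f v hf => ?_⟩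
    have R := m1 (cl c)
    rw [← (U_dil R hs hL a v).2, h2 f _ hf, ← (U_dil R hs hL a _).2, Fss.dl, u_inv R]
    simp only [inv_inv]
    congr 2
    funext x
    simp only [ds_apply, N86.c1_sim _ L a, simL_smul, one_smul, smul_inv_smul₀ hs.ne']

variable (h : Hy (cl c) (Pf (cl c)))
include h

theorem q_tf : TfGen h.q := fun S h0 k => by
  have key : ∀ B, Ls (Dl (cl c)) B → ∀ f v, IsTest f → v ∈ S → tt (cl c) (Pf (cl c)) B f v ∈ S := by
    intro B hB f v hf hv
    induction hB with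
    | base j =>
      obtain ⟨s, hs, n, Φ, μ, h1, h2, rfl⟩ := j
      have l : ∀ ν, Pf (cl c) (Fss.dl (cl c).Q s hs (Φ ν)) := fun ν =>
        pf_ls hC (.base ⟨s, hs, n, Φ, ν, h1, h2, rfl⟩)
      refine k n (fun ν => tt _ _ (Fss.dl (cl c).Q s hs (Φ ν))) μ f v
        ⟨fun ν => ⟨_, l ν, rfl⟩, fun ν L g w hL hg => Subtype.ext ?_⟩ hf hv
      simp only [Submodule.coe_sum, Submodule.coe_smul, h.qU one_pos hL, h.tc (l _) hg,
        h.tc (l _) (Ap.test_sim one_pos hL 0 hg)]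
      exact tc_dl h2 hs ν L 0 g w hL hg
    | zero =>
      rw [show tt (cl c) (Pf (cl c)) (fun _ _ => 0) f v = 0 from Subtype.ext (h.tl .zero hf v)]
      exact zero_mem _
    | @lin B C z k1 k2 h1 h2 =>
      rw [show tt (cl c) (Pf (cl c)) (fun f v => B f v + z • C f v) f v =
        tt _ _ B f v + z • tt _ _ C f v from Subtype.ext (by
          rw [h.tc (pf_ls hC (.lin z k1 k2)) hf, Submodule.coe_add, Submodule.coe_smul,
            h.tc (pf_ls hC k1) hf, h.tc (pf_ls hC k2) hf])]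
      exact add_mem h1 (S.smul_mem z h2)
    | @cg B C j e h1 =>
      rw [show tt (cl c) (Pf (cl c)) C f v = tt _ _ B f v from Subtype.ext (by
        rw [h.tc (pf_ls hC (.cg j e)) hf, h.tc (pf_ls hC j) hf, e f _ hf])]
      exact h1
  exact h.cyc S h0 fun B f v hB => key B hB.2 f v

theorem q_cv : Cv h.q := fun s hs => by
  have o := H496.isLor_one
  refine ⟨Function.Surjective.denseRange fun v => ⟨_, ue_inv h.rep hs o 0 v⟩, ?_⟩
  rintro _ ⟨B, hB, rfl⟩
  have p := pf_ls hC (ls_dl hB.2 hs)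
  refine ⟨1, fun _ => 1, fun _ => tt _ _ (Fss.dl (cl c).Q s hs B), fun _ => ⟨_, p, rfl⟩,
    fun f v hf => Subtype.ext ?_⟩
  rw [Fin.sum_univ_one, one_smul, h.qU hs o, h.tc hB (Ap.test_sim hs o 0 hf), h.tc p hf, h.qU hs o,
    Fss.dl, show (cl c).Q.U s GF.one 0 v = u (cl c).Q s hs v from rfl, inv_u (m1 (cl c))]
  rfl

omit hC in
theorem dw_tt (hB : Pf (cl c) B) (κ t : ℝ) {f : Fn} (hf : IsTest f) (v : ES (cl c) (Pf (cl c))) :
    (dw h.q κ t (Fx.tt _ _ B) f v).1 = dw c.Q κ t B f v := by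
  have e : ∀ t (v : ES (cl c) (Pf (cl c))), (ue h.q t v).1 = ue c.Q t v := fun t v =>
    h.qU (Real.exp_pos t) H496.isLor_one 0 v
  rw [dw, dw, Submodule.coe_smul, e, h.tc hB (de_test _ hf), e]

omit hC in
theorem q_mg {κ : ℝ} {Y : Fld D} {F : Finset (ℂ × ℕ)} {Z : ℂ × ℕ → Fld D} (hB : Pf (cl c) B)
    (hY : Pf (cl c) Y) (g : Mg c.Q κ B Y F Z) :
    ∃ Z', Mg h.q κ (tt _ _ B) (tt _ _ Y) F Z' := by
  classical
  have d : Scl (cl c).Q Y F Z := ⟨fun p => ⟨.base (c.Q.bose_fld _ (g.bose p)),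
    fun _ => .base (g.bose p)⟩, (g.scl (m1 c)).2⟩
  have p : ∀ e, Pf (cl c) (if e ∈ F then Z e else Y) := fun e => by
    split_ifs with he
    exacts [pf_scl hY d he, hY]
  refine ⟨fun e => tt _ _ (if e ∈ F then Z e else Y), fun e => ⟨_, p e, rfl⟩, g.dim,
    fun f v w hf => ?_, .inl ⟨_, hY, rfl⟩, fun l f v hf => Subtype.ext ?_⟩
  · simp only [Submodule.coe_inner, dw_tt h hB _ _ hf, h.tc hY hf]
    exact g.mf f v w hf
  · simp only [dw_tt h hY _ _ hf, Submodule.coe_sum, Submodule.coe_smul, h.tc (p _) hf]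
    exact (g.law l f v hf).trans (Finset.sum_congr rfl fun e he => by rw [if_pos he])

end

section sector

variable {P : Fld D → Prop} (h : Hy c P) {T : Ix → Ix → Fld D} {J : Ix → Fld D}
  (pT : ∀ m n, P (T m n))
include h pT

theorem q_st (hT : Stress0 c.Q T) : Stress0 h.q fun m n => tt c P (T m n) := by
  refine ⟨fun m n => ⟨_, pT m n, rfl⟩, fun m n f v hf => Subtype.ext (by
      rw [h.tc (pT m n) hf, h.tc (pT n m) hf, hT.symm m n f v hf]),
      fun m n => h.tadj (pT m n) (pT m n) (hT.herm m n), fun m n L a f v hL hf => ?_,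
      fun n f v hf => ?_, ?_⟩
  · refine Subtype.ext ?_
    simp only [Submodule.coe_sum, Submodule.coe_smul, h.tc (pT _ _) hf, h.qU one_pos hL,
      h.tc (pT _ _) (Grp.test_sim one_pos hL a hf)]
    exact hT.cov m n L a f v hL hf
  · refine Subtype.ext ?_
    simp only [Submodule.coe_sum, fun m => h.tc (pT m n) (Grp.test_pd m hf)]
    exact hT.conserved n f v hf
  · rintro F n _ f v w hF ⟨B, hB, rfl⟩ hf hc
    have h1 := hT.charge F n _ f v w hF (h.fm.fld hB) hf hc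
    obtain ⟨_, _, -, -, -, -, hF⟩ := hF
    rw [Submodule.coe_inner, Submodule.coe_smul, h.tc hB (Grp.test_pd n hf)]
    refine h1.congr' ((eventually_gt_atTop 0).mono fun R hR => ?_)
    simp only [Submodule.coe_inner, Submodule.coe_sub, h.tc hB hf, h.tc (pT _ _) (hF R hR).1]

theorem q_pch (hP : ND.PCh c.Q T c.A) : ND.PCh h.q (fun m n => tt c P (T m n)) (aa c P) := by
  rintro F X _ f v w hF hX ⟨B, hB, rfl⟩ hf hc
  have h1 := hP F X _ f v w hF hX (h.fm.fld hB) hf hc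
  obtain ⟨_, _, -, -, -, -, hF⟩ := hF
  rw [Submodule.coe_inner, Submodule.coe_sub, h.ac hX, h.tc hB hf, h.tc hB hf, h.ac hX]
  refine h1.congr' ((eventually_gt_atTop 0).mono fun R hR => ?_)
  simp only [Submodule.coe_inner, Submodule.coe_sub, h.tc hB hf, ND.cur, Submodule.coe_sum,
    fun n => h.tc (pT o n) (Sct.test_cur hX n (hF R hR).1)]

theorem q_vir (pJ : ∀ m, P (J m)) (hV : Virial0 c.Q T J c.A) :
    Virial0 h.q (fun m n => tt c P (T m n)) (fun m => tt c P (J m)) (aa c P) := by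
  have i1 := ZZ.S0.isSim_id
  refine ⟨fun m => ⟨_, pJ m, rfl⟩, fun m L a f v hL hf => ?_, fun f v hf => ?_, ?_⟩
  · refine Subtype.ext ?_
    simp only [Submodule.coe_sum, Submodule.coe_smul, h.tc (pJ _) hf, h.qU one_pos hL,
      h.tc (pJ _) (Grp.test_sim one_pos hL a hf)]
    exact hV.cov m L a f v hL hf
  · refine Subtype.ext ?_
    simp only [GF.tr, Submodule.coe_sum, Submodule.coe_smul, Submodule.coe_neg, h.tc (pT _ _) hf,
      fun m => h.tc (pJ m) (Grp.test_pd m hf)]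
    exact hV.div f v hf
  · rintro F _ f v w hF ⟨B, hB, rfl⟩ hf hc
    have h1 := hV.dil F _ f v w hF (h.fm.fld hB) hf hc
    obtain ⟨_, _, -, -, -, -, hF⟩ := hF
    rw [Submodule.coe_inner, Submodule.coe_sub, h.ac i1, h.tc hB hf, h.tc hB hf, h.ac i1]
    refine h1.congr' ((eventually_gt_atTop 0).mono fun R hR => ?_)
    simp only [Submodule.coe_inner, Submodule.coe_sub, h.tc hB hf, dcur, ND.cur, Submodule.coe_sum,
      fun n => h.tc (pT o n) (Sct.test_cur i1 n (hF R hR).1), h.tc (pJ o) (hF R hR).1]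

end sector

theorem mg_b {κ : ℝ} {Y : Fld D} {F : Finset (ℂ × ℕ)} {Z : ℂ × ℕ → Fld D}
    (g : Mg c.Q κ B Y F Z) : (cl c).Q.bose Y :=
  g.alt.elim .base fun e => e ▸ Ls.zero

/-- the marginal part of the stress tensor has dimension four -/
theorem coreG {T : Ix → Ix → Fld D} {J : Ix → Fld D} (hT : Stress0 c.Q T)
    (hA : ND.PCh c.Q T c.A) (hV : Virial0 c.Q T J c.A) (hC : Cv c.Q)
    (aT : ∀ m n, Asy c.Q 4 (T m n)) (aJ : ∀ m, Asy c.Q 3 (J m)) (hU : UVac c.Q) (hE : EBd c.Q) :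
    ∃ S, c.Q.IsStress S ∧ ND.PCh c.Q S c.A := by
  have M := m1 c
  have t := e0_thm (cl c)
  have h : Hy (cl c) (Pf (cl c)) := ⟨t, fm_cl hC, wc0 t (gr_row t) (lc_ebd hE) (fm_cl hC)⟩
  have hb := fun m n => c.Q.bose_fld _ (hT.bose m n)
  have hT' : Stress0 (cl c).Q T := lc_st hT
  have hV' : Virial0 (cl c).Q T J (cl c).A := lc_vir c.hN.der hb hV
  choose Y F Z hY using fun m n => marg M (κ := 0) (by norm_num) (aT m n)
  choose K F' Z' hK using fun m => marg M (κ := 1) (by norm_num) (aJ m)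
  have pT := pf_T hT'
  have pJ := pf_J hV'
  have pY : ∀ m n, Pf (cl c) (Y m n) := fun m n =>
    pf_of (c := cl c) (Φ := fun μ : Fin 2 → Ix => Y (μ 0) (μ 1)) (fun _ => mg_b (hY _ _))
      (tc_mf (c := c) (tc_T hT) fun _ => (hY _ _).mf) ![m, n]
  have pK : ∀ m, Pf (cl c) (K m) := fun m =>
    pf_of (c := cl c) (Φ := fun μ : Fin 1 → Ix => K (μ 0)) (fun _ => mg_b (hK _))
      (tc_mf (c := c) (tc_J hV) fun _ => (hK _).mf) fun _ => m
  choose Z1 g1 using fun m n => q_mg h (pT m n) (pY m n) (hY m n)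
  choose Z2 g2 using fun m => q_mg h (pJ m) (pK m) (hK m)
  obtain ⟨d0, z0⟩ := core0 (q_st h pT hT') (q_pch h pT (lc_pch c.hN.der hb hA))
    (q_vir h pT pJ hV') (q_cv hC h) (q_tf hC h) h.lnm (h.uv hU) g1 g2
  have d : ∀ m n l f v, IsTest f → dw c.Q 0 l (Y m n) f v = Y m n f v := fun m n l f v hf => by
    have := FE.bz (Q := lc c.Q) (A := fun f v => Y m n f v + (-(Real.exp (-(0 * l)) : ℂ)) •
      Fss.dl c.Q _ (Real.exp_pos (-l)) (Y m n) f v)
      (.lin _ (pY m n).1 (lb_dil hC (pY m n).1 _)) (fun f hf => by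
        have e := congrArg Subtype.val (d0 m n l f h.q.vac hf)
        rw [dw_tt h (pY m n) _ _ hf, h.tc (pY m n) hf, dw_dl] at e
        rw [neg_smul, add_neg_eq_zero]
        exact e.symm) hf v
    rw [neg_smul, add_neg_eq_zero] at this
    rw [dw_dl, this]
  have ex : ∀ m n, ∃ B, c.Q.bose B ∧ ∀ f v, IsTest f → B f v = Y m n f v := fun m n =>
    (hY m n).alt.elim (fun b => ⟨_, b, fun _ _ _ => rfl⟩) fun e => ⟨_, hT.bose o 1,
      fun f v hf => (FE.bz (hT.bose o 1) (fun g hg => by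
        have := congrArg Subtype.val (z0 m n (fun g v hg => Subtype.ext (by
          rw [h.tc (pY m n) hg, e]; rfl)) g h.q.vac hg)
        rwa [h.tc (pT o 1) hg] at this) hf v).trans (by rw [e])⟩
  choose S b e using ex
  have hM := fun m n => (hY m n).mf.cg (e m n)
  obtain ⟨s1, s2⟩ := st_marg M hC (fun L a hL =>
    Function.Surjective.denseRange (Bas.surj (sg_row c) a one_pos hL)) hT b hM
  exact ⟨S, stress_of M s1 fun m n l f v hf => by
    rw [e m n f v hf, ← d m n l f v hf, dw, dw, e m n _ _ (de_test _ hf)], s2 _ c.hN.der hA⟩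

end

end Vale.Agent.P352E
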