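import Vale.Agent.P352E.B

/-!
# P352E: the potential is weakly local
-/

set_option linter.all false

open Filter Topology
open scoped ComplexConjugate

namespace Vale.Agent.P352E

open Vale.Agent.P352 Vale.Agent.P352.GF Vale.Agent.P352.BW Vale.Agent.P352.H246
open Vale.Agent.P352.H496 Vale.Agent.P352.H755 Vale.Agent.P352.H15
open Vale.Agent.P352.SubConf (IsAdj)
open Vale.Agent.P352X Vale.Agent.P352X.EB Vale.Agent.P352X.EG Vale.Agent.P352X.EG.Fx
open Vale.Agent.P352AA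
open Vale.Agent.P352X.Fss (ds u ds_test ds_apply ds_inv)
open Vale.Agent.P352X.Fss.G Vale.Agent.P352X.EG.Fsg
open UniformSpace (Completion)

noncomputable section

variable {D : Type*} [NormedAddCommGroup D] [InnerProductSpace ℂ D] {c : Cg D} {B B' C C' : Fld D}

/-- the extended similitudes on the domain -/
def ud (g : Sh c) : D →ₗ[ℂ] D := cond g.e (gl c ∘ₗ H.Le.ul c g.toSg) (H.Le.ul c g.toSg)

lemma ud_coe (g : Sh c) (v : D) : ((ud g v : D) : Completion D) = g.U c v := by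
  have k := (sg_row c).coe g.s g.L g.a v g.hs g.hL
  obtain ⟨g, _ | _⟩ := g
  · exact k.symm
  · exact ((congrArg c.Γ k).trans (c.hN.ext _)).symm

lemma ud_inv (g : Sh c) (v : D) : ud g (ud g.inv v) = v :=
  Completion.coe_injective D (by rw [ud_coe, ud_coe, Ops.U_inv_app (EG.e0_thm c)])

lemma inv_ud (g : Sh c) (v : D) : ud g.inv (ud g v) = v :=
  Completion.coe_injective D (by rw [ud_coe, ud_coe, Ops.inv_U_app (EG.e0_thm c)])

lemma ud_vac (g : Sh c) : ud g c.Q.vac = c.Q.vac :=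
  Completion.coe_injective D ((ud_coe g _).trans ((sg_row c).vac g).1)

lemma ud_inner (g : Sh c) (v w : D) : inner ℂ (ud g v) (ud g w) = inner ℂ v w := by
  rw [← Completion.inner_coe, ud_coe, ud_coe,
    ContinuousLinearMap.inner_map_map_of_mem_unitary ((sg_row c).uni g), Completion.inner_coe]

/-- `C` is the transform of `B` -/
def Cj (W : D →ₗ[ℂ] D) (τ : V → V) (B C : Fld D) : Prop :=
  ∀ f v, IsTest f → B f (W v) = W (C (fun x => f (τ x)) v)

lemma cj_adj {g : Sh c} (h : Cj (ud g) g.act B C) (a : IsAdj B B') (b : IsAdj C C') :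
    Cj (ud g) g.act B' C' := fun f v hf => ext_inner_right ℂ fun z => by
  rw [← ud_inv g z, H755.adj_symm a f _ _ hf, h _ _ (isTest_bar hf), ud_inner, ud_inner]
  exact (H755.adj_symm b _ _ _ ((sg_row c).test g f hf)).symm

lemma cj_ls {P : Fld D → Prop} {W : D →ₗ[ℂ] D} {τ : V → V}
    (h : ∀ B, P B → ∃ C, Ls P C ∧ Cj W τ B C) (hB : Ls P B) : ∃ C, Ls P C ∧ Cj W τ B C := by
  induction hB with
  | base k => exact h _ k
  | zero => exact ⟨_, .zero, fun _ _ _ => (map_zero W).symm⟩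
  | lin z _ _ h1 h2 =>
    obtain ⟨C1, a1, b1⟩ := h1
    obtain ⟨C2, a2, b2⟩ := h2
    exact ⟨_, .lin z a1 a2, fun f v hf => by simp only [map_add, map_smul, b1 f v hf, b2 f v hf]⟩
  | cg _ e h1 =>
    obtain ⟨C1, a1, b1⟩ := h1
    exact ⟨C1, a1, fun f v hf => by rw [e f _ hf, b1 f v hf]⟩

section
variable (hC : Cv c.Q) (hM : MfAll c.Q)
include hC hM

theorem ex_cj (g : Sh c) (hB : Ls c.Q.fld B) : ∃ C, Ls c.Q.fld C ∧ Cj (ud g) g.act B C := by
  have o := H496.isLor_one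
  have R := m1 c
  have k0 : ∀ B, Ls c.Q.fld B → ∃ C, Ls c.Q.fld C ∧ Cj (H.Le.ul c g.toSg) g.act B C := by
    intro B hB
    have e : ∀ v, H.Le.ul c g.toSg v = H.Le.ul c ⟨1, _, g.a, one_pos, o⟩
        (H.Le.ul c ⟨1, g.L, 0, one_pos, g.hL⟩ (u c.Q g.s g.hs v)) := fun v => by
      refine (U_dil R g.hs g.hL g.a v).2.symm.trans (Eq.trans ?_
        (R 1 _ g.a 1 g.L 0 _ one_pos one_pos o g.hL (.inl rfl)).symm)
      simp only [Fss.sim_dil, zero_add, one_smul, smul_zero, add_zero, mul_one]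
    obtain ⟨C, a1, a2⟩ := cj_ls (W := H.Le.ul c ⟨1, g.L, 0, one_pos, g.hL⟩) (τ := sim 1 g.L 0)
      (fun B k => by
        obtain ⟨n, E, h1, h2⟩ := hM B k
        choose k Φ a hΦ e using h1
        refine ⟨_, Ls.sum Finset.univ (fun _ => 1) fun i _ => Ls.sum Finset.univ
          (fun b => (k i).ρ g.L b (a i)) fun b _ => .base ((hΦ i).1 b), fun f v hf => ?_⟩
        simp only [h2 f _ hf, one_smul, map_sum, map_smul, e]
        exact Finset.sum_congr rfl fun i _ => (hΦ i).2 (a i) g.L f v g.hL hf) hB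
    refine ⟨_, ls_dil hC a1 (inv_pos.2 g.hs), fun f v hf => ?_⟩
    have f1 := Ap.test_sim one_pos o g.a hf
    rw [e, e]
    refine ((lc c.Q).transl B g.a f _ hB hf).trans (congrArg _ ((a2 _ _ f1).trans (congrArg _ ?_)))
    rw [Fss.dl, u_inv R]
    simp only [inv_inv]
    congr 1
    funext x
    rw [ds_apply, Sg.act, N86.c1_sim g.s g.L g.a, Fss.sim_dil, one_smul, simL_smul,
      smul_inv_smul₀ g.hs.ne', add_comm]
  obtain ⟨g, _ | _⟩ := g
  · exact k0 B hB
  · obtain ⟨E, E', a, b, e⟩ := ls_split hB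
    obtain ⟨C, a1, a2⟩ := k0 _ (.lin (-1) (ls_bf a) (ls_ff b))
    refine ⟨C, a1, fun f v hf => ?_⟩
    show B f (c.G _) = gl c (H.Le.ul c g _)
    rw [← a2 f v hf, e f _ hf, ls_par (fun _ => pa_bose) a f _ hf,
      ls_par (fun _ => pa_fer) b f _ hf, map_add, map_smul]
    exact congrArg (· + _) (one_smul _ _)

theorem lc_cov {s : ℝ} {L : Ix → V} (hs : 0 < s) (hL : IsLor L) (a : V) : Cov (lc c.Q) s L a := by
  let g : Sh c := ⟨⟨s, L, a, hs, hL⟩, false⟩
  refine ⟨Function.Surjective.denseRange (Bas.surj (sg_row c) a hs hL), fun B hB => ?_⟩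
  obtain ⟨C, a1, a2⟩ := ex_cj hC hM g.inv hB
  refine ⟨1, fun _ => 1, fun _ => C, fun _ => a1, fun f v hf => ?_⟩
  have := congrArg (ud g) (a2 _ (ud g v) ((sg_row c).test g f hf))
  rw [inv_ud, ud_inv] at this
  simp only [Sg.pull, (sg_row c).act_inv] at this
  rw [Fin.sum_univ_one, one_smul]
  exact this

end

theorem st_ls (hM : MfAll c.Q) (hE : EBd c.Q) (hB : Ls c.Q.fld B) {f : Fn} (hf : In W0 f) :
    ∀ B', IsAdj B B' → Stm (M0 c) c.Om (B f c.Q.vac : D) (B' (bar f) c.Q.vac : D) := by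
  have t := EG.e0_thm c
  have st := stf_row t rpx_row (bws_row t rpx_row (og_row c) (sst_row _)) (EG.mb_row t hE)
  replace hB : Ls (fun B => ∃ e, H.Cmp c e B) B := hB.mono fun B k => by
    obtain ⟨n, p, e⟩ := H.md t hM B k
    exact .cg (Ls.sum Finset.univ (fun _ => 1) fun i _ => .base ⟨_, (p i).h⟩) fun f v hf => by
      simp only [e f v hf, one_smul]
  have ad : ∀ {B}, Ls (fun B => ∃ e, H.Cmp c e B) B → ∃ B', IsAdj B B' := fun h =>
    let ⟨B', _, b⟩ := (lc c.Q).adj _ (h.mono fun _ ⟨_, k⟩ => .base (H.Le.fld k)); ⟨B', b⟩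
  have hb := isTest_bar hf.1
  induction hB with
  | base k =>
    obtain ⟨e, k, Φ, μ, h, rfl⟩ := k
    intro B' a
    obtain ⟨Φ', a1, b⟩ := H.padj t h
    rw [adj_eq a (b μ) hb]
    exact st e k Φ Φ' h.mf h.par (fun μ => ⟨a1.mf.1 μ, b μ⟩) μ f hf
  | zero =>
    intro B' a
    rw [adj_eq a (B2 := fun _ _ => 0) (fun _ _ _ _ => by simp) hb, Completion.coe_zero]
    exact t.stb.zero _ _
  | lin z k1 k2 h1 h2 =>
    intro B' a
    obtain ⟨B1, b1⟩ := ad k1
    obtain ⟨C1, b2⟩ := ad k2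
    rw [adj_eq a (B2 := fun f v => B1 f v + conj z • C1 f v) (fun f v w hf => by
      simp only [inner_add_left, inner_add_right, inner_smul_left, inner_smul_right, b1 f v w hf,
        b2 f v w hf]) hb]
    simp only [Completion.coe_add, Completion.coe_smul]
    exact t.stb.add _ _ _ _ _ _ (h1 _ b1) (t.stb.smul _ _ z _ _ (h2 _ b2))
  | cg k e h1 =>
    intro B' a
    rw [e f _ hf.1]
    exact h1 B' fun g v w hg => by rw [← e g v hg, a g v w hg]

/-- local vector valued distributions -/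
structure Lv (c : Cg D) (φ φ' : Fn → Completion D) : Prop where
  add : ∀ f g, IsTest f → IsTest g → φ' (fun x => f x + g x) = φ' f + φ' g
  loc : ∀ K f, In K f → EG.Loc c K (φ f) (φ' (bar f))

lemma in_w0 {g : Sh c} {K : Set V} {f : Fn} (hg : g.Adm K) (hf : In K f) :
    In W0 (g.inv.pull f) := by
  refine Ap.in_mono ((sg_row c).inn g.inv K f hf) fun y hy => ?_
  have := hg _ hy
  rwa [(sg_row c).act_inv] at this

theorem lv_fld (hC : Cv c.Q) (hM : MfAll c.Q) (hE : EBd c.Q) (hB : c.Q.fld B) (hB' : c.Q.fld B')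
    (a : IsAdj B B') : Lv c (fun f => (B f c.Q.vac : D)) fun f => (B' f c.Q.vac : D) := by
  refine ⟨fun f g hf hg => ?_, fun K f hf g hg => ?_⟩
  · have := c.Q.lin _ f g 1 c.Q.vac hB' hf hg
    simp only [one_mul, one_smul] at this
    rw [this, Completion.coe_add]
  · obtain ⟨C, a1, a2⟩ := ex_cj hC hM g.inv (.base hB)
    obtain ⟨C', -, a3⟩ := (lc c.Q).adj C a1
    have e1 := a2 f c.Q.vac hf.1
    have e2 := cj_adj a2 a a3 _ c.Q.vac (isTest_bar hf.1)
    rw [ud_vac] at e1 e2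
    beta_reduce
    rw [e1, e2, ← ud_coe, ← ud_coe, ud_inv, ud_inv]
    exact st_ls hM hE a1 (in_w0 hg hf) C' a3

theorem lv_pot {T : Ix → Ix → Fld D} {l : Fn → Completion D} (hl : Pot c T l) : Lv c l l := by
  have t := EG.e0_thm c
  refine ⟨fun f g hf hg => by simpa using hl.lin f g 1 hf hg, fun K f hf g hg => ?_⟩
  rw [EG.Let.pot t hl g.inv hf.1, EG.Let.pot t hl g.inv (isTest_bar hf.1), map_smul, map_smul,
    Ops.U_inv_app t, Ops.U_inv_app t]
  have := t.stb.smul _ _ ((g.inv.s ^ 2 : ℝ) : ℂ) _ _ (hl.st _ (in_w0 hg hf))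
  rwa [Complex.conj_ofReal] at this

section
variable {φ φ' ψ ψ' : Fn → Completion D} {v : Completion D}

lemma Lv.lp (h : Lv c φ φ') {O : Set V} {f : Fn} (hf : In O f) : EG.Lp c (φ f) (φ' (bar f)) :=
  ⟨_, EG.Ops.bdd_supp hf, h.loc _ f (EG.Ops.in_self hf)⟩

lemma Lv.op_add (h : Lv c φ φ') {f g : Fn} (hf : In Set.univ f) (hg : In Set.univ g)
    (hv : EG.D1 c v) : EG.ml c (φ' (bar fun y => f y + g y)) v =
      EG.ml c (φ' (bar f)) v + EG.ml c (φ' (bar g)) v := by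
  have t := EG.e0_thm c
  rw [show (bar fun y => f y + g y) = fun y => bar f y + bar g y from
    funext fun _ => star_add _ _, h.add _ _ (isTest_bar hf.1) (isTest_bar hg.1),
    (EG.mu2_row t (EG.mu1_row t)).add_l _ _ _ _ _ (h.lp hf) (h.lp hg) hv]

theorem Lv.comm (h : Lv c φ φ') (k : Lv c ψ ψ') (e : ∀ f, IsTest f → c.Γ (ψ f) = ψ f)
    (e' : ∀ f, IsTest f → c.Γ (ψ' f) = ψ' f) {f g : Fn} (hf : In Set.univ f) (hg : In Set.univ g)
    (hs : Sep f g) (hv : EG.D1 c v) : EG.ml c (φ' (bar f)) (EG.ml c (ψ' (bar g)) v) =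
      EG.ml c (ψ' (bar g)) (EG.ml c (φ' (bar f)) v) := by
  have t := EG.e0_thm c
  have m := EG.mu1_row t
  have m' := EG.mu2_row t m
  refine sub_eq_zero.1 (t.pou (fun f g => EG.ml c (φ' (bar f)) (EG.ml c (ψ' (bar g)) v) -
    EG.ml c (ψ' (bar g)) (EG.ml c (φ' (bar f)) v)) ?_ ?_ ?_ f g hf hg hs)
  · intro f f' g hf hf' hg
    rw [h.op_add hf hf' (Ops.d_ml m (k.lp hg) hv), h.op_add hf hf' hv,
      m'.add_r _ _ _ _ (k.lp hg) (Ops.d_ml m (h.lp hf) hv) (Ops.d_ml m (h.lp hf') hv)]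
    abel
  · intro f g g' hf hg hg'
    rw [k.op_add hg hg' (Ops.d_ml m (h.lp hf) hv), k.op_add hg hg' hv,
      m'.add_r _ _ _ _ (h.lp hf) (Ops.d_ml m (k.lp hg) hv) (Ops.d_ml m (k.lp hg') hv)]
    abel
  · intro p q hpq
    obtain ⟨ε, hε, hK⟩ := t.geo.sep p q hpq
    exact ⟨ε, hε, fun f g hf hg => sub_eq_zero.2 (m'.loc _ _ _ _ _ _ _ false
      Metric.isBounded_ball Metric.isBounded_ball hK (h.loc _ f hf) (k.loc _ g hg)
      ((e g hg.1).trans (one_smul _ _).symm)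
      ((e' _ (isTest_bar hg.1)).trans (one_smul _ _).symm) hv)⟩

end

/-- **the potential is weakly local** -/
theorem weakG (hC : Cv c.Q) (hM : MfAll c.Q) (hE : EBd c.Q) {T : Ix → Ix → Fld D}
    {l : Fn → Completion D} (hl : Pot c T l) : N86.WeakLoc c.Q l := by
  intro f X X' hf hX
  have t := EG.e0_thm c
  have m := EG.mu1_row t
  have m' := EG.mu2_row t m
  have k := lv_pot hl
  have p := k.lp hf
  have key : ∀ v, EG.D1 c v → ∃ z, EG.D1 c z ∧ ∀ w : D,
      inner ℂ z (w : Completion D) = inner ℂ v ((X' w : D) : Completion D) ∧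
      inner ℂ (EG.ml c (l (bar f)) z) (w : Completion D) =
        inner ℂ (EG.ml c (l (bar f)) v) ((X' w : D) : Completion D) := by
    induction hX with
    | one => exact fun v hv => ⟨v, hv, fun _ => ⟨rfl, rfl⟩⟩
    | add X X' Y Y' _ _ h1 h2 =>
      intro v hv
      obtain ⟨z, ⟨z', a1⟩, a2⟩ := h1 v hv
      obtain ⟨y, ⟨y', b1⟩, b2⟩ := h2 v hv
      refine ⟨z + y, ⟨_, m.add _ _ _ _ a1 b1⟩, fun w => ?_⟩
      rw [m'.add_r _ _ _ _ p ⟨_, a1⟩ ⟨_, b1⟩, Completion.coe_add, inner_add_left, inner_add_left,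
        inner_add_right, inner_add_right, (a2 w).1, (a2 w).2, (b2 w).1, (b2 w).2]
      exact ⟨rfl, rfl⟩
    | smul a X X' _ h1 =>
      intro v hv
      obtain ⟨z, ⟨z', a1⟩, a2⟩ := h1 v hv
      refine ⟨a • z, ⟨_, m.smul a _ _ a1⟩, fun w => ?_⟩
      rw [m'.smul_r _ _ _ _ p ⟨_, a1⟩, Completion.coe_smul, inner_smul_left, inner_smul_left,
        inner_smul_right, inner_smul_right, (a2 w).1, (a2 w).2]
      exact ⟨rfl, rfl⟩
    | fld A B g X X' hA hB a hg _ h1 =>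
      intro v hv
      obtain ⟨z, a1, a2⟩ := h1 v hv
      have h := lv_fld hC hM hE hA hB a
      have hg' := Ap.in_univ' hg
      have af : ∀ y (w : D), EG.D1 c y → inner ℂ (EG.ml c (B (bar g) c.Q.vac : D) y)
          (w : Completion D) = inner ℂ y ((B (bar g) w : D) : Completion D) := fun y w hy =>
        m'.aff (tsupport g) (fun v => A g v) (fun v => B (bar g) v) y w (EG.Ops.bdd_supp hg)
          (t.sg.affa _ _ _ (Al.fld A B g _ _ hA hB a (EG.Ops.in_self hg) Al.one)) (h.lp hg) hy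
      refine ⟨_, Ops.d_ml m (h.lp hg) a1, fun w => ⟨(af z w a1).trans (a2 _).1, ?_⟩⟩
      rw [← h.comm k hl.gam hl.gam hg' hf (H15.sep_symm fun x hx y hy => hg.2.2 hy x hx) a1,
        af _ w (Ops.d_ml m p a1), (a2 _).2]
  obtain ⟨z, a1, a2⟩ := key c.Om ⟨_, m.vac⟩
  have e : z = (X c.Q.vac : D) := ext_inner_right ℂ fun y => Completion.induction_on y
    (isClosed_eq (by fun_prop) (by fun_prop)) fun w => by
      rw [(a2 w).1, Cg.Om, om, Completion.inner_coe, Completion.inner_coe, hX.adj]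
  have h := (a2 c.Q.vac).2
  rw [m'.one _ _ p, show ((c.Q.vac : D) : Completion D) = c.Om from rfl,
    m'.herm _ _ _ _ p a1 ⟨_, m.vac⟩, m'.one _ _ (Ops.lp_symm m p), e] at h
  rw [← inner_conj_symm, ← h, inner_conj_symm]

end

end Vale.Agent.P352E
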