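import Vale.Agent.P352E.C
import Vale.Agent.P352AA.Cf

/-!
# P352E: the virial current without curl, conformal invariance
-/

set_option linter.all false

open Filter Topology
open scoped ComplexConjugate SchwartzMap LineDeriv

namespace Vale.Agent.P352E

open Vale.Agent.P352 Vale.Agent.P352.GF Vale.Agent.P352.BW Vale.Agent.P352.H246
open Vale.Agent.P352.H496 Vale.Agent.P352.H755 Vale.Agent.P352.H15
open Vale.Agent.P352.SubConf (IsAdj)
open Vale.Agent.P352X Vale.Agent.P352X.EB Vale.Agent.P352X.EG Vale.Agent.P352X.EG.Fx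
open Vale.Agent.P352AA
open Vale.Agent.P352X.G3p (sum1)
open Vale.Agent.P352X.ZZ.S0 (pd_lin pd_sim pd_bar pd_pd)
open UniformSpace (Completion)

noncomputable section

variable {D : Type*} [NormedAddCommGroup D] [InnerProductSpace ℂ D] {c : Cg D}
  {T : Ix → Ix → Fld D} {l : Fn → Completion D}

lemma l_sumG (hl : Pot c T l) {ι : Type*} (t : Finset ι) (a : ι → ℂ) {f : ι → Fn}
    (hf : ∀ i, IsTest (f i)) : l (fun x => ∑ i ∈ t, a i * f i x) = ∑ i ∈ t, a i • l (f i) := by
  choose g hg using hf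
  let lC := Grp.toC l hl.lin hl.cont
  have h1 : lC (∑ i ∈ t, a i • g i) = ∑ i ∈ t, a i • lC (g i) := by
    simp only [map_sum, map_smul]
  have h2 : ∀ g, lC g = l (ev g) := fun _ => rfl
  simpa only [h2, Grp.ev_sum, hg] using h1

lemma multG (hl : Pot c T l) : L.Mult c.Q 1 3 (gr l) where
  lin μ f f' a hf hf' := by
    rw [gr, gr, gr, pd_lin _ a hf hf', hl.lin _ _ a (Ap.test_pd _ hf) (Ap.test_pd _ hf'),
      smul_add, smul_comm a]
  cont μ := by
    simp only [gr, Grp.pd_ev]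
    exact (hl.cont.comp (LineDeriv.lineDerivOpCLM ℂ Sch (bas (μ 0) 1 : V)).continuous).const_smul
      ((-3 * eta (μ 0) : ℝ) : ℂ)
  cov μ s L a f hs hL hf := by
    have h1 : ∀ k, Ue c.Q s L a (gr l (fun _ => k) fun x => f (sim s L a x)) =
        ∑ j, ((-3 * eta k * (s * L k j) * (s ^ 2)⁻¹ : ℝ) : ℂ) • l (pd j f) := fun k => by
      rw [← Ug_apply c.Q hs hL, gr, pd_sim k a hs hL hf,
        l_sumG hl _ _ fun j => Grp.test_sim hs hL a (Ap.test_pd j hf), map_smul, map_sum,
        Finset.smul_sum]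
      refine Finset.sum_congr rfl fun j _ => ?_
      rw [map_smul, hl.cov s L a _ hs hL (Ap.test_pd j hf), smul_smul, smul_smul]
      congr 1
      have : (s : ℂ) ≠ 0 := Complex.ofReal_ne_zero.2 hs.ne'
      push_cast
      field_simp
    rw [sum1]
    simp only [h1, Finset.smul_sum, smul_smul]
    rw [Finset.sum_comm]
    simp only [← Finset.sum_smul, ← Complex.ofReal_mul, ← Complex.ofReal_sum]
    have h2 : ∀ j, ∑ k, s ^ ((4 : ℝ) - 3) * (∏ i : Fin 1, L k (μ i)) *
        (-3 * eta k * (s * L k j) * (s ^ 2)⁻¹) = -3 * bas (μ 0) (eta (μ 0)) j := fun j => by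
      rw [← lor_transpose hL, Finset.mul_sum]
      refine Finset.sum_congr rfl fun k _ => ?_
      rw [show (4 : ℝ) - 3 = 1 by norm_num, Real.rpow_one, Fin.prod_univ_one]
      field_simp
    simp only [h2]
    rw [Finset.sum_eq_single (μ 0) (fun j _ hj => by simp [bas, hj]) (by simp)]
    simp [gr, bas]

lemma weak_gr (h : N86.WeakLoc c.Q l) (μ : Fin 1 → Ix) : N86.WeakLoc c.Q (gr l μ) :=
  fun f X X' hf hX => by
    have s : cc (tsupport f) ⊆ cc (tsupport (pd (μ 0) f)) :=
      fun y hy x hx => hy x (Ap.tsupport_pd _ f hx)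
    rw [gr, gr, inner_smul_right, inner_smul_left, Complex.conj_ofReal, pd_bar _ hf.1,
      h _ X X' (Ap.in_pd (μ 0) hf) (hX.mono s)]

theorem virG (hC : Cv c.Q) (hM : MfAll c.Q) (hE : EBd c.Q) (hT : c.Q.IsStress T) (hl : Pot c T l)
    {Φ : (Fin 1 → Ix) → Fld D}
    (hΦ : ∀ μ, c.Q.bose (Φ μ) ∧ ∀ f, IsTest f → ((Φ μ f c.Q.vac : D) : Completion D) = gr l μ f) :
    IsVirial c.Q T (fun m => Φ fun _ => m) ∧ Curl (fun m => Φ fun _ => m) c.Q.vac := by
  have t := EG.e0_thm c
  have m1 := EG.mu1_row t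
  have hb : ∀ m, c.Q.bose (Φ fun _ => m) := fun m => (hΦ _).1
  have hF := fun m => c.Q.bose_fld _ (hb m)
  have hv : ∀ m f, IsTest f → ((Φ (fun _ => m) f c.Q.vac : D) : Completion D) =
      ((-3 * eta m : ℝ) : ℂ) • l (pd m f) := fun m f hf => (hΦ _).2 f hf
  have hh : ∀ m, IsAdj (Φ fun _ => m) (Φ fun _ => m) := fun m => by
    obtain ⟨B, hB, a⟩ := c.Q.adj _ (hF m)
    refine FE.herm_vac (hb m) a ?_
    rintro _ ⟨G, rfl⟩
    refine sub_eq_zero.1 (ST.vanish_of_compact (Grp.fC (hF m) c.Q.vac - Grp.fC hB c.Q.vac) G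
      fun u hu _ => sub_eq_zero.2 (Completion.coe_injective D ?_))
    have hi : In Set.univ (bar (ev u)) := Ap.in_bar ⟨⟨u, rfl⟩, hu, Set.subset_univ _⟩
    have p1 := (lv_fld hC hM hE (hF m) hB a).lp hi
    have p2 := m1.smul ((-3 * eta m : ℝ) : ℂ) _ _ ((lv_pot hl).lp (Ap.in_pd m hi))
    rw [Complex.conj_ofReal, ← hv m _ hi.1, ← pd_bar m hi.1, ← hv m _ (isTest_bar hi.1)] at p2
    have := m1.uniq _ _ _ p2 p1
    rwa [bar_bar] at this
  refine ⟨⟨hb, hh, fun m s L a f v hs hL hf => ?_, fun f v hf => ?_⟩, curl_of fun m n f hf => ?_⟩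
  · obtain ⟨F, rfl⟩ := exists_fl hf
    rw [fl_sim s hs hL a]
    refine FE.cov_vac (Q := lc c.Q) hs hL (lc_cov hC hM hs hL a) (.base (hb m))
      (fun k => .base (hb k)) _ (fun g => Completion.coe_injective D ?_) F v
    have h4 := (multG hl).cov (fun _ => m) s L a _ hs hL (isTest_fl g)
    rw [sum1, ← (hΦ _).2 _ (isTest_fl g)] at h4
    refine h4.trans ?_
    rw [← Completion.coe_toComplL (𝕜 := ℂ), map_sum]
    refine Finset.sum_congr rfl fun k _ => ?_
    rw [map_smul, Completion.coe_toComplL, ← (hΦ _).2 _ (Grp.test_sim hs hL a (isTest_fl g)),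
      ue_coe hs hL, show (4 : ℝ) - 3 = 1 by norm_num, Real.rpow_one, Fin.prod_univ_one,
      Complex.ofReal_mul, fl_sim s hs hL a]
    rfl
  · obtain ⟨F, rfl⟩ := exists_fl hf
    simp only [pd_fl]
    refine eq_neg_of_add_eq_zero_left (FE.div_vac hT hb hh
      (fun g => Completion.coe_injective D ?_) F v)
    have hg := isTest_fl g
    simp only [← pd_fl]
    rw [Completion.coe_add, ← hl.trace _ hg, ← Completion.coe_toComplL (𝕜 := ℂ), map_sum,
      show box (fl g) = fun x => ∑ m, (eta m : ℂ) * pd m (pd m (fl g)) x from rfl,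
      l_sumG hl _ _ fun m => Ap.test_pd m (Ap.test_pd m hg), Finset.smul_sum,
      ← Finset.sum_add_distrib, map_zero]
    refine Finset.sum_eq_zero fun k _ => ?_
    rw [Completion.coe_toComplL, hv _ _ (Ap.test_pd k hg), smul_smul, ← add_smul]
    simp
  · refine Completion.coe_injective D ?_
    have e2 : ∀ k, (eta k : ℂ) * ((-3 * eta k : ℝ) : ℂ) = -3 := fun k => by
      rw [← Complex.ofReal_mul, mul_left_comm, P352X.eta_sq]
      norm_num
    rw [Completion.coe_smul, Completion.coe_smul, hv _ _ (Ap.test_pd m hf),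
      hv _ _ (Ap.test_pd n hf), smul_smul, smul_smul, e2, e2, pd_pd n m hf]

open P352X.CA.G in
theorem confG (hT : c.Q.IsStress T) (hl : Pot c T l) {K : Ix → Fld D} (hK : IsVirial c.Q T K)
    (hc : Curl K c.Q.vac) (hv : ∀ m f, IsTest f → ∃ (z : ℂ) (g : Fn), IsTest g ∧
      ((K m f c.Q.vac : D) : Completion D) = z • l g) {Q' : Theory D} (n : IsEnl c.Q Q')
    (g : Gr Q' c.G) : Conf Q' c.G T K := by
  have hT' := H746.isStress_enl n hT
  have h2 := H731.enl_virial n hK
  have h3 := H246D.impr_of_curl hT' h2 (n.vac ▸ hc)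
  obtain ⟨S, s1, s2, s3⟩ := hl.mix
  let k : Cx D := ⟨Q', _, c.G, isT_of_impr h3 hT',
    fun m n k l f g v hf hg h => sub_eq_zero.1 (h3.self m n k l f g v hf hg h), h3.cov,
    ⟨_, hT'.bose o o⟩, g.inv, g.herm, fun m n f v hf => by
      show _ = gl c _
      simp only [improveJ, map_add, map_sub, map_smul, map_sum, g.bose _ _ v (hT'.bose m n) hf,
        fun k l => g.bose _ _ v (h2.bose k) (Ap.test_pd l hf)]
      rfl, g.GU,
    fun C hC => by
      obtain ⟨C1, C2, a1, a2, e⟩ := g.split C hC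
      refine ⟨2, ![1, -1], ![C1, C2], fun j => ?_, fun k v hk => ?_⟩
      · fin_cases j
        exacts [Q'.bose_fld _ a1, a2.1]
      · rw [e k _ hk, g.bose C1 k v a1 hk, a2.2 k v hk, show c.G _ = gl c _ from rfl, map_add,
          map_neg]
        simp [gl, g.inv],
    g.mul, fun F w hF => by
      have b1 : ∀ m f, IsTest f → ((K m f c.Q.vac : D) : Completion D) ∈ S := fun m f hf => by
        obtain ⟨z, g, hg, e⟩ := hv m f hf
        exact e ▸ S.smul_mem z (s2 g hg)
      have b2 : ((smt (improveJ T K) F c.Q.vac : D) : Completion D) ∈ S := by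
        rw [← Completion.coe_toComplL (𝕜 := ℂ)]
        simp only [smt, improveJ, map_sum, map_add, map_sub, map_smul, Completion.coe_toComplL]
        refine S.sum_mem fun m _ => S.sum_mem fun n _ => ?_
        have hf := (hF m n).isTest
        exact S.add_mem (S.sub_mem (s1 m n _ hf) (S.smul_mem _ (b1 _ _ (Ap.test_pd _ hf))))
          (S.smul_mem _ (S.sum_mem fun k _ => b1 _ _ (Ap.test_pd _ hf)))
      have b3 := s3 _ b2 w
      rw [Cg.Om, om, Completion.inner_coe, Completion.inner_coe] at b3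
      rw [n.vac, n.U]
      refine b3.congr' (eventually_nhdsWithin_of_forall fun r hr => ?_)
      obtain ⟨p1, p2⟩ := CA.lsc_pos hr
      beta_reduce
      rw [ue_coe p1 p2, Completion.inner_coe]⟩
  exact conf_of k (fun A B => clf k g) rfl hT' h2 h3

end

end Vale.Agent.P352E
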