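import Vale.Agent.P352AA.Pub

namespace Vale.Agent.P352E

open P352 GF BW H246 SubConf P352X
open UniformSpace (Completion)

variable {D : Type*} [NormedAddCommGroup D] [InnerProductSpace ℂ D]

/-- The theory `Q'` extends the theory `Q` in the same Hilbert space: its domain `D'` is dense, the
vacuum and the similitudes are those of `Q`, and every (Bose) field `B` of `Q` gives a (Bose) field
`e B` of `Q'`, which is a restriction of the adjoint of the formal adjoint of `B`, and agrees with
`B` on the intersection of the domains. -/
structure Ext1 (Q : Theory D) {D' : Submodule ℂ (Completion D)} (Q' : Theory D')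
    (e : Fld D → Fld D') : Prop where
  dense : Dense (D' : Set (Completion D))
  vac : (Q'.vac : Completion D) = om Q
  U : ∀ s L a v, 0 < s → IsLor L → (Q'.U s L a v : Completion D) = Ue Q s L a v
  fld : ∀ B, Q.fld B → Q'.fld (e B)
  bos : ∀ B, Q.bose B → Q'.bose (e B)
  adj : ∀ B B' f (v : D') (w : D), Q.fld B → IsAdj B B' → IsTest f →
    inner ℂ (e B f v : Completion D) (w : Completion D) =
      inner ℂ (v : Completion D) (B' (bar f) w : Completion D)
  agree : ∀ B f (v : D') (w : D), Q.fld B → IsTest f → (v : Completion D) = w →
    (e B f v : Completion D) = (B f w : D)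

/-- **The theory contains all local Bose fields of its defining fields.** The defining fields (the
fields of `Q₀`) are fields of `Q`, they are finite sums of components of multiplets and have finite
scaling laws. Every Bose field of an extension of `Q₀` in the same Hilbert space, with fields
affiliated to the algebras of the wedges, agrees on the vacuum with a Bose field of `Q`. -/
def BorchG (Q : Theory D) (G : D → D) (N : Set V → VonNeumannAlgebra (Completion D)) : Prop :=
  ∃ Q₀ : Theory D, H15.IsEnl Q₀ Q ∧ Gr Q₀ G ∧ MfAll Q₀ ∧ FSL Q₀ ∧
    ∀ (D' : Submodule ℂ (Completion D)) (Q' : Theory D') e, Ext1 Q₀ Q' e → AfW N Q' (↑) →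
      ∀ B, Q'.bose B → ∃ C, Q.bose C ∧
        ∀ f, IsTest f → ((C f Q.vac : D) : Completion D) = (B f Q'.vac : D')

end Vale.Agent.P352E
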