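import Vale.Agent.P352E.D
import Vale.Agent.P352E.Pub
import Vale.Agent.P352AA.Mx

/-!
# P352E: the theorem
-/

set_option linter.all false

open Filter Topology
open scoped ComplexConjugate

namespace Vale.Agent.P352E

open Vale.Agent.P352 Vale.Agent.P352.GF Vale.Agent.P352.BW Vale.Agent.P352.H246
open Vale.Agent.P352.H496 Vale.Agent.P352.H755 Vale.Agent.P352.H15
open Vale.Agent.P352.SubConf (IsAdj)
open Vale.Agent.P352X Vale.Agent.P352X.EB Vale.Agent.P352X.EG Vale.Agent.P352X.EG.Fx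
open Vale.Agent.P352AA Vale.Agent.P352Z
open Vale.Agent.P352X.ZZ.S0 (clo clo_enl)
open UniformSpace (Completion)

noncomputable section

variable {D : Type*} [NormedAddCommGroup D] [InnerProductSpace ℂ D]

/-- a theory with the zero field -/
def zf (Q : Theory D) : Theory D :=
  { Q with
    fld := fun B => Q.fld B ∨ B = fun _ _ => 0
    bose := fun B => Q.bose B ∨ B = fun _ _ => 0
    cyclic := fun W a b => Q.cyclic W a fun A f v hA => b A f v (.inl hA)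
    lin := fun A f g z v hA => (lc Q).lin A f g z v (hA.elim .base fun e => e ▸ Ls.zero)
    cont := fun A v hA => (lc Q).cont A v (hA.elim .base fun e => e ▸ Ls.zero)
    adj := fun A hA => hA.elim (fun a => let ⟨B, b, c⟩ := Q.adj A a; ⟨B, .inl b, c⟩)
      fun e => ⟨A, .inr e, fun _ _ _ _ => by simp [e]⟩
    bose_fld := fun A hA => hA.imp_left (Q.bose_fld A)
    loc := fun A B f g v hA hB => (lc Q).loc A B f g v (hA.elim .base fun e => e ▸ Ls.zero)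
      (hB.elim .base fun e => e ▸ Ls.zero)
    transl := fun A a f v hA => (lc Q).transl A a f v (hA.elim .base fun e => e ▸ Ls.zero) }

lemma zf_mf {Q : Theory D} (h : MfAll Q) : MfAll (zf Q) := by
  rintro A (hA | rfl)
  · obtain ⟨r, B, a, b⟩ := h A hA
    exact ⟨r, B, fun i => let ⟨k, Φ, j, c, d⟩ := a i; ⟨k, Φ, j, ⟨fun x => .inl (c.1 x), c.2⟩, d⟩, b⟩
  · exact ⟨0, Fin.elim0, fun i => i.elim0, fun _ _ _ => rfl⟩

lemma zf_fsl {Q : Theory D} (h : FSL Q) : FSL (zf Q) := by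
  intro A hA
  by_cases e : A = fun _ _ => 0
  · exact ⟨∅, fun _ => A, fun _ => ⟨hA, id⟩, fun s f v _ _ => by rw [e]; rfl⟩
  · obtain ⟨F, B, a, b⟩ := h A (hA.resolve_right e)
    exact ⟨F, B, fun p => ⟨.inl (a p).1, fun c => .inl ((a p).2 (c.resolve_right e))⟩, b⟩

theorem en_eq {Q Q' : Theory D} (e : Q'.U = Q.U) (k : ℕ) : ∀ v, en Q' k v = en Q k v := by
  induction k with
  | zero => exact fun _ => rfl
  | succ k h => exact fun v => by simp only [en, h, Dv, e]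

variable {c : Cg D} {S : Ix → Ix → Fld D}

theorem borchG (hS : c.Q.IsStress S) (hP : ND.PCh c.Q S c.A) (hU : UVac c.Q) (hE : EBd c.Q)
    (hX : BorchG c.Q c.G c.N) : ∃ l, Pot c S l ∧ ∃ Φ : (Fin 1 → Ix) → Fld D,
      ∀ μ, c.Q.bose (Φ μ) ∧ ∀ f, IsTest f → ((Φ μ f c.Q.vac : D) : Completion D) = gr l μ f := by
  obtain ⟨Q₀, n₀, g₀, hM, hF, hX⟩ := hX
  have n : IsEnl (zf Q₀) (lc c.Q) := ⟨n₀.vac, n₀.U,
    fun A h => h.elim (fun a => .base (n₀.fld A a)) fun e => e ▸ Ls.zero,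
    fun A h => h.elim (fun a => .base (n₀.bose A a)) fun e => e ▸ Ls.zero⟩
  have h := H746.isStress_enl (lc_enl c.Q) hS
  have g := lc_lng c
  have sb : ∀ {B}, (sub n h).bose B → (lc c.Q).bose B := fun hB =>
    hB.elim (n.bose _) fun ⟨m, k, e⟩ => e ▸ h.bose m k
  have z : Fer (sub n h) c.G fun _ _ => 0 :=
    ⟨.inl (.inr rfl), fun _ _ _ => ((congrArg Neg.neg (map_zero (gl c))).trans neg_zero).symm⟩
  let c₀ : Cg D := ⟨sub n h, c.G, c.A, c.Γ, c.N, ⟨g.inv, g.herm,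
    fun B f v hB => g.bose B f v (sb hB), by
      rintro B ((hB | rfl) | ⟨m, k, rfl⟩)
      · obtain ⟨C, C', a, b, e⟩ := g₀.split B hB
        exact ⟨C, C', .inl (.inl a), ⟨.inl (.inl b.1), b.2⟩, e⟩
      · exact ⟨_, _, .inl (.inr rfl), z, fun _ _ _ => (add_zero _).symm⟩
      · exact ⟨_, _, .inr ⟨m, k, rfl⟩, z, fun _ _ _ => (add_zero _).symm⟩,
    fun B C f k v hB hC => g.anti B C f k v ⟨sub_fld n h hB.1, hB.2⟩ ⟨sub_fld n h hC.1, hC.2⟩,
    g.GU, g.mul⟩, g.vac, g.add, g.der, g.ext, fun O B f hB => g.fld O B f (sub_fld n h hB), g.mono,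
    g.cov, g.gam, g.loc⟩
  have hS₀ : c₀.Q.IsStress S := ⟨fun m k => .inr ⟨m, k, rfl⟩, h.symm, h.herm, h.cov, h.conserved,
    fun F k A f v w a b => h.charge F k A f v w a (sub_fld n h b)⟩
  obtain ⟨l, hl, D', Q', G', e, L, h1, h0, -, h3, -, h5, -⟩ := H.fin_thm c₀ hS₀
    (fun F X B f v w a b d => lc_pch c.hN.der (fun m k => c.Q.bose_fld _ (hS.bose m k)) hP
      F X B f v w a b (sub_fld n h d)) (sub_fsl n h (zf_fsl hF))
    (H.md (EG.e0_thm c₀) (sub_mf n h (zf_mf hM))) hU fun B hB => by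
      simpa only [en_eq (Q := lc c.Q) (Q' := c₀.Q) rfl] using lc_ebd hE B (sub_fld n h hB)
  have hL := Q'.bose_fld L h3.1
  have en := clo_enl Q'
  choose Φ hΦ using fun μ : Fin 1 → Ix => hX D' (clo Q') e
    ⟨h1.dense, h1.vac.trans (congrArg ((↑) : D → Completion D) n₀.vac),
      fun s L a v hs hL => (h1.U s L a v hs hL).trans (by simp only [Ue, ← n₀.U]; rfl),
      fun B b => en.fld _ (h1.fld B (.inl (.inl b))), fun B b => en.bose _ (h1.bos B (.inl (.inl b))),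
      fun B B' f v w b => h1.adj B B' f v w (.inl (.inl b)),
      fun B f v w b => h1.agree B f v w (.inl (.inl b))⟩
    (afw_clo D'.subtype h0) (fun f v => 0 + ((-3 * eta (μ 0) : ℝ) : ℂ) • L (pd (μ 0) f) v)
    ⟨.lin _ .zero (.der _ (.base hL)), fun C f g v hC hf hg k => by
      beta_reduce
      rw [zero_add, zero_add, H746.fld_smul hC hg, Q'.loc L C _ g v h3.1 hC (Ap.test_pd _ hf) hg
        (H15.sep_symm (ZZ.S0.sep_pd _ (H15.sep_symm k)))]⟩
  refine ⟨l, ⟨hl.lin, hl.cont, hl.trace, hl.cov, hl.gam, hl.st, hl.mix⟩, Φ, fun μ =>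
    ⟨(hΦ μ).1, fun f hf => ((hΦ μ).2 f hf).trans ?_⟩⟩
  rw [zero_add, gr, ← h5 _ (Ap.test_pd _ hf)]
  rfl

theorem potG (hS : c.Q.IsStress S) (hP : ND.PCh c.Q S c.A) (hU : UVac c.Q) (hE : EBd c.Q) :
    ∃ l, Pot c S l := by
  have t := EG.e0_thm c
  have w0 := wc_row t S (gr_row t) hE hS
  obtain ⟨E, q, τ, a, j, h⟩ := sec_row t S hS hP hU hE (w0.pj _)
  obtain ⟨N, hN, hL⟩ := nb_row t S E q τ a j (lift_row _ _) (bic_row E) w0 h
  exact pot_row t S E q τ a j N h hN hL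

theorem final (Q : Theory D) (G : D → D) (T : Ix → Ix → Fld D) (hT : Stress0 Q T)
    (A : (V → V) → D → D) (hA : ND.PCh Q T A) (J : Ix → Fld D) (hV : Virial0 Q T J A)
    (hC : ∀ s, 0 < s → Cov Q s GF.one 0) (aT : ∀ m n, Asy Q 4 (T m n)) (aJ : ∀ m, Asy Q 3 (J m))
    (hM : MfAll Q) (Γ : Completion D →L[ℂ] Completion D)
    (N : Set V → VonNeumannAlgebra (Completion D)) (hN : LNg Q G A Γ N) (hU : L.UVac Q)
    (hE : EBd Q) (hR : RecV Q ∨ BorchG Q G N) :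
    ∃ S K, IsImpr Q T (improveJ S K) ∧
      ∀ Q' : Theory D, IsEnl Q Q' → Gr Q' G → Conf Q' G S K := by
  let c : Cg D := ⟨Q, G, A, Γ, N, hN⟩
  obtain ⟨S, h1, h2⟩ := coreG (c := c) hT hA hV hC aT aJ hU hE
  obtain ⟨l, hl, Φ, hΦ⟩ : ∃ l, Pot c S l ∧ ∃ Φ : (Fin 1 → Ix) → Fld D, ∀ μ, c.Q.bose (Φ μ) ∧
      ∀ f, IsTest f → ((Φ μ f c.Q.vac : D) : Completion D) = gr l μ f := by
    refine hR.elim (fun r => ?_) (borchG (c := c) h1 h2 hU hE)
    obtain ⟨l, hl⟩ := potG (c := c) h1 h2 hU hE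
    exact ⟨l, hl, r _ (multG hl) (weak_gr (weakG (c := c) hC hM hE hl))⟩
  obtain ⟨a, b⟩ := virG (c := c) hC hM hE h1 hl hΦ
  have h5 : ∀ Q' : Theory D, IsEnl Q Q' → Gr Q' G → Conf Q' G S fun m => Φ fun _ => m :=
    fun Q' n g => confG h1 hl a b (fun m f hf => ⟨_, _, Ap.test_pd m hf, (hΦ _).2 f hf⟩) n g
  exact ⟨S, _, Fss.impr hT hA h1 h2 (h5 Q ⟨rfl, rfl, fun _ h => h, fun _ h => h⟩ hN.toGr).impr, h5⟩

end

end Vale.Agent.P352E
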